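import Vale.Agent.P060.Defs
import Vale.Agent.P060.Bd3.B7

namespace Vale.Agent.Results.P060.AllLargeT

open Vale.Agent.P060 Vale.Agent.P060.HW

/-- Hadwiger's conjecture fails for every large `t`: there is a finite graph with no `K_(t+1)` minor
which is not `t`-colourable, with independence number at most two. -/
theorem result : ∃ t₀ : ℕ, ∀ t : ℕ, t₀ ≤ t → ∃ (n : ℕ) (G : SimpleGraph (Fin n)),
    G.indepNum ≤ 2 ∧ ¬ HasCliqueMinor G (t + 1) ∧ ¬ G.Colorable t ∧
      (hadwigerNumber G : ℕ∞) < G.chromaticNumber :=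
  AllLarge.all_large

end Vale.Agent.Results.P060.AllLargeT
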