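import Vale.Agent.P060.Defs
import Vale.Agent.P060.Bd3.B7
import Vale.Agent.P060.Bd3.B5
import Vale.Agent.P060.Bd3.B6
import Vale.Agent.P060.Bd3.B4
import Vale.Agent.P060.Bd3.B1
import Vale.Agent.P060.Bd3.B2

namespace Vale.Agent.Results.P060.Disproof

open Vale.Agent.P060 Vale.Agent.P060.HW

/-- Hadwiger's conjecture is false, already for graphs with independence number at most two. -/
theorem result : ∃ n : ℕ, ∃ G : SimpleGraph (Fin n), G.indepNum ≤ 2 ∧
    (hadwigerNumber G : ℕ∞) < G.chromaticNumber :=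
  disproof_of frameInst ex1 exC (tvls_of (tv_of tvK2 TvS.tvSel tvLoc ex1) ls ldFam) overlap notOutA

end Vale.Agent.Results.P060.Disproof
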